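import Vale.Agent.P168.Bdl.B1
open MeasureTheory ProbabilityTheory Filter
open scoped NNReal Topology

namespace Vale.Agent.Results.P168.Full

open Vale.Agent.P168

/-- The Mézard-Parisi formula: for every model of the class, `lim F_N` exists and equals
`inf_{r ≥ 0} Φ_r`. -/
theorem result (K : ℕ) (lam : ℝ≥0) (ρ : Measure (Clause K)) (ν : Measure ℝ)
    (h : InClass K ρ ν) :
    ∃ L : ℝ, Tendsto (fun N : ℕ => pressure lam ρ ν N) atTop (𝓝 L) ∧
      mezardParisi lam ρ ν = (L : EReal) := by
  have := h.prob_clause
  have := h.prob_field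
  have : NeZero K := PT.neZero_of h
  exact MP.limit_of_bounds (MP.lower_full ρ (PT.maxTheta_int h) ν h.field_int lam)
    fun N hN r m x hx => PT.pt_upper h hx lam hN

end Vale.Agent.Results.P168.Full
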